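import Mathlib

/-!
Almost complex structures and two-forms on the four-torus `ℝ^4/ℤ^4`, as periodic matrix fields.
-/

namespace Vale.Agent.P204

open Matrix
open scoped ContDiff

/-- Invariance under the lattice `ℤ^4`. -/
def IsPeriodic {α : Type} (F : (Fin 4 → ℝ) → α) : Prop :=
  ∀ x i, F (Function.update x i (x i + 1)) = F x

/-- The partial derivative in the direction of coordinate `k`. -/
noncomputable def pd (k : Fin 4) (g : (Fin 4 → ℝ) → ℝ) (x : Fin 4 → ℝ) : ℝ :=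
  fderiv ℝ g x (Pi.single k 1)

/-- A smooth almost complex structure on the four-torus, in the global coordinate frame. -/
def IsAlmostComplex (J : (Fin 4 → ℝ) → Matrix (Fin 4) (Fin 4) ℝ) : Prop :=
  (∀ i j, ContDiff ℝ ∞ fun x => J x i j) ∧ IsPeriodic J ∧ ∀ x, J x * J x = -1

/-- A smooth closed two-form on the four-torus, as an antisymmetric matrix field. -/
def IsClosedTwoForm (w : (Fin 4 → ℝ) → Matrix (Fin 4) (Fin 4) ℝ) : Prop :=
  (∀ i j, ContDiff ℝ ∞ fun x => w x i j) ∧ IsPeriodic w ∧ (∀ x, (w x)ᵀ = -w x) ∧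
  ∀ i j k x, pd i (fun y => w y j k) x + pd j (fun y => w y k i) x + pd k (fun y => w y i j) x = 0

/-- `w(v, J v) > 0` for all nonzero tangent vectors `v`. -/
def Tames (w J : (Fin 4 → ℝ) → Matrix (Fin 4) (Fin 4) ℝ) : Prop :=
  ∀ x v, v ≠ 0 → 0 < v ⬝ᵥ (w x *ᵥ (J x *ᵥ v))

/-- `w` tames `J` and is `J`-invariant. -/
def IsCompatible (w J : (Fin 4 → ℝ) → Matrix (Fin 4) (Fin 4) ℝ) : Prop :=
  Tames w J ∧ ∀ x u v, (J x *ᵥ u) ⬝ᵥ (w x *ᵥ (J x *ᵥ v)) = u ⬝ᵥ (w x *ᵥ v)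

end Vale.Agent.P204
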