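import Mathlib
import Vale.Agent.P204.Defs

/-!
Averages over three coordinates, and the invariance of the spatial periods of a closed form.
-/

namespace Vale.Agent.P204

open Filter Topology Set MeasureTheory

/-- Integration in coordinate `k` over one period. -/
noncomputable def avg (k : Fin 4) (g : (Fin 4 → ℝ) → ℝ) (x : Fin 4 → ℝ) : ℝ :=
  ∫ s in (0 : ℝ)..1, g (Function.update x k s)

/-- `g'` is the continuous derivative of the continuous `g` along coordinate `l`. -/
def HasPD (l : Fin 4) (g g' : (Fin 4 → ℝ) → ℝ) : Prop :=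
  Continuous g ∧ Continuous g' ∧
    ∀ x s, HasDerivAt (fun r => g (Function.update x l r)) (g' (Function.update x l s)) s

lemma avg_continuous (k : Fin 4) {g : (Fin 4 → ℝ) → ℝ} (hg : Continuous g) :
    Continuous (avg k g) :=
  intervalIntegral.continuous_parametric_intervalIntegral_of_continuous'
    (f := fun (x : Fin 4 → ℝ) s => g (Function.update x k s))
    (hg.comp ((continuous_fst (X := Fin 4 → ℝ) (Y := ℝ)).update k continuous_snd)) 0 1

lemma avg_update (k : Fin 4) (g : (Fin 4 → ℝ) → ℝ) (x : Fin 4 → ℝ) (a : ℝ) :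
    avg k g (Function.update x k a) = avg k g x := by
  simp only [avg, Function.update_idem]

lemma avg_periodic (k : Fin 4) {g : (Fin 4 → ℝ) → ℝ} (hg : IsPeriodic g) :
    IsPeriodic (avg k g) := by
  intro x i
  by_cases h : i = k
  · subst h; exact avg_update i g x _
  · refine intervalIntegral.integral_congr fun s _ => ?_
    rw [Function.update_comm h]
    have := hg (Function.update x k s) i
    rwa [Function.update_of_ne h] at this

lemma HasPD.avg_commute {l k : Fin 4} (hkl : k ≠ l) {g g' : (Fin 4 → ℝ) → ℝ} (h : HasPD l g g') :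
    HasPD l (avg k g) (avg k g') := by
  refine ⟨avg_continuous k h.1, avg_continuous k h.2.1, fun x s => ?_⟩
  have hF : ∀ G : (Fin 4 → ℝ) → ℝ, Continuous G →
      Continuous fun p : ℝ × ℝ => G (Function.update (Function.update x l p.1) k p.2) := by
    intro G hG
    exact hG.comp (((continuous_const (y := x) : Continuous fun _ : ℝ × ℝ => x).update l
      continuous_fst).update k continuous_snd)
  obtain ⟨C, hC⟩ := ((isCompact_Icc (a := s - 1) (b := s + 1)).prod
    (isCompact_Icc (a := (0 : ℝ)) (b := 1))).exists_bound_of_continuousOn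
      (hF g' h.2.1).continuousOn
  refine (intervalIntegral.hasDerivAt_integral_of_dominated_loc_of_deriv_le
    (F := fun r t => g (Function.update (Function.update x l r) k t))
    (F' := fun r t => g' (Function.update (Function.update x l r) k t)) (bound := fun _ => C)
    (Icc_mem_nhds (by linarith) (by linarith : s < s + 1))
    (Eventually.of_forall fun r =>
      ((hF g h.1).comp (Continuous.prodMk_right r)).aestronglyMeasurable)
    (((hF g h.1).comp (Continuous.prodMk_right s)).intervalIntegrable _ _)
    (((hF g' h.2.1).comp (Continuous.prodMk_right s)).aestronglyMeasurable)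
    (Eventually.of_forall fun t ht r hr => hC (r, t) ⟨hr, by
      rw [uIoc_of_le zero_le_one] at ht; exact ⟨ht.1.le, ht.2⟩⟩)
    intervalIntegrable_const (Eventually.of_forall fun t _ r _ => ?_)).2
  have := h.2.2 (Function.update x k t) r
  simpa only [Function.update_comm hkl] using this

lemma HasPD.avg_same {l : Fin 4} {g g' : (Fin 4 → ℝ) → ℝ} (h : HasPD l g g')
    (hper : IsPeriodic g) (x : Fin 4 → ℝ) : avg l g' x = 0 := by
  rw [avg, intervalIntegral.integral_eq_sub_of_hasDerivAt (f := fun r => g (Function.update x l r))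
    (fun s _ => h.2.2 x s) ((h.2.1.comp (continuous_const.update l continuous_id)).intervalIntegrable _ _)]
  have := hper (Function.update x l 0) l
  rw [Function.update_self, Function.update_idem, zero_add] at this
  rw [this, sub_self]

/-- The average over the last three coordinates. -/
noncomputable def avg3 (g : (Fin 4 → ℝ) → ℝ) : (Fin 4 → ℝ) → ℝ := avg 1 (avg 2 (avg 3 g))

lemma avg_zero (k : Fin 4) : avg k (fun _ => 0) = fun _ => 0 := by funext x; simp [avg]

lemma avg_add (k : Fin 4) {g h : (Fin 4 → ℝ) → ℝ} (hg : Continuous g) (hh : Continuous h) :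
    avg k (fun y => g y + h y) = fun y => avg k g y + avg k h y := by
  funext x
  exact intervalIntegral.integral_add
    ((hg.comp (continuous_const.update k continuous_id)).intervalIntegrable _ _)
    ((hh.comp (continuous_const.update k continuous_id)).intervalIntegrable _ _)

lemma avg_const_mul (k : Fin 4) (a : ℝ) (g : (Fin 4 → ℝ) → ℝ) :
    avg k (fun y => a * g y) = fun y => a * avg k g y := by
  funext x; exact intervalIntegral.integral_const_mul a _

lemma avg3_add {g h : (Fin 4 → ℝ) → ℝ} (hg : Continuous g) (hh : Continuous h) (x : Fin 4 → ℝ) :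
    avg3 (fun y => g y + h y) x = avg3 g x + avg3 h x := by
  simp only [avg3]
  rw [avg_add 3 hg hh, avg_add 2 (avg_continuous 3 hg) (avg_continuous 3 hh),
    avg_add 1 (avg_continuous 2 (avg_continuous 3 hg)) (avg_continuous 2 (avg_continuous 3 hh))]

lemma avg3_const_mul (a : ℝ) (g : (Fin 4 → ℝ) → ℝ) (x : Fin 4 → ℝ) :
    avg3 (fun y => a * g y) x = a * avg3 g x := by
  simp only [avg3, avg_const_mul]

lemma avg3_zero (x : Fin 4 → ℝ) : avg3 (fun _ => 0) x = 0 := by simp [avg3, avg_zero]

lemma avg3_sum {ι : Type} [DecidableEq ι] (S : Finset ι) {g : ι → (Fin 4 → ℝ) → ℝ}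
    (hg : ∀ i, Continuous (g i)) (x : Fin 4 → ℝ) :
    avg3 (fun y => ∑ i ∈ S, g i y) x = ∑ i ∈ S, avg3 (g i) x := by
  induction S using Finset.induction with
  | empty => simpa using avg3_zero x
  | insert a S ha ih =>
    simp only [Finset.sum_insert ha]
    rw [avg3_add (hg a) (continuous_finsetSum _ fun i _ => hg i), ih]

lemma avg3_deriv_zero {l : Fin 4} (hl : l ≠ 0) {g g' : (Fin 4 → ℝ) → ℝ} (h : HasPD l g g')
    (hper : IsPeriodic g) (x : Fin 4 → ℝ) : avg3 g' x = 0 := by
  obtain rfl | rfl | rfl : l = 1 ∨ l = 2 ∨ l = 3 := by omega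
  · exact ((h.avg_commute (by decide : (3 : Fin 4) ≠ 1)).avg_commute (by decide)).avg_same
      (avg_periodic _ (avg_periodic _ hper)) x
  · have : avg 2 (avg 3 g') = fun _ => 0 := funext fun y =>
      (h.avg_commute (by decide : (3 : Fin 4) ≠ 2)).avg_same (avg_periodic _ hper) y
    simp [avg3, this, avg_zero]
  · have : avg 3 g' = fun _ => 0 := funext fun y => h.avg_same hper y
    simp [avg3, this, avg_zero]

lemma avg3_time {g g' : (Fin 4 → ℝ) → ℝ} (h : HasPD 0 g g') : HasPD 0 (avg3 g) (avg3 g') :=
  ((h.avg_commute (by decide)).avg_commute (by decide)).avg_commute (by decide)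

lemma hasPD_of_contDiff {g : (Fin 4 → ℝ) → ℝ} (hg : ContDiff ℝ (⊤ : ℕ∞) g) (l : Fin 4) :
    HasPD l g (pd l g) := by
  refine ⟨hg.continuous, (hg.continuous_fderiv (by simp)).clm_apply continuous_const, fun x s => ?_⟩
  exact ((hg.differentiable (by simp)) _).hasFDerivAt.comp_hasDerivAt s (hasDerivAt_update x l s)

/-- The spatial averages of a closed form do not depend on the first coordinate. -/
theorem period_constant {w : (Fin 4 → ℝ) → Matrix (Fin 4) (Fin 4) ℝ} (hw : IsClosedTwoForm w)
    {i j : Fin 4} (hi : i ≠ 0) (hj : j ≠ 0) (x : Fin 4 → ℝ) (t : ℝ) :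
    avg3 (fun y => w y i j) (Function.update x 0 t) =
      avg3 (fun y => w y i j) (Function.update x 0 0) := by
  have hp : ∀ a b l, HasPD l (fun y => w y a b) (pd l fun y => w y a b) := fun a b l =>
    hasPD_of_contDiff (hw.1 a b) l
  have hper : ∀ a b, IsPeriodic fun y => w y a b := fun a b y l => by
    simp only [hw.2.1 y l]
  have hd : ∀ y, avg3 (pd 0 fun y => w y i j) y = 0 := by
    intro y
    have e : (pd 0 fun y => w y i j) = fun z =>
        (-1) * pd i (fun y => w y j 0) z + (-1) * pd j (fun y => w y 0 i) z := by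
      funext z; linarith [hw.2.2.2 0 i j z]
    rw [e, avg3_add ((hp j 0 i).2.1.const_mul _) ((hp 0 i j).2.1.const_mul _), avg3_const_mul,
      avg3_const_mul, avg3_deriv_zero hi (hp j 0 i) (hper j 0),
      avg3_deriv_zero hj (hp 0 i j) (hper 0 i), mul_zero, add_zero]
  have hder : ∀ s, HasDerivAt (fun r => avg3 (fun y => w y i j) (Function.update x 0 r)) 0 s :=
    fun s => by
      have := (avg3_time (hp i j 0)).2.2 x s
      rwa [hd] at this
  exact is_const_of_deriv_eq_zero (fun s => (hder s).differentiableAt) (fun s => (hder s).deriv) t 0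

/-- The average of a positive function is positive. -/
lemma avg3_pos {g : (Fin 4 → ℝ) → ℝ} (hg : Continuous g) {x : Fin 4 → ℝ}
    (hpos : ∀ y : Fin 4 → ℝ, y 0 = x 0 → 0 < g y) : 0 < avg3 g x := by
  have c3 := avg_continuous 3 hg
  have c2 := avg_continuous 2 c3
  have key : ∀ (k : Fin 4) (h : (Fin 4 → ℝ) → ℝ), k ≠ 0 → Continuous h →
      (∀ y : Fin 4 → ℝ, y 0 = x 0 → 0 < h y) → ∀ y : Fin 4 → ℝ, y 0 = x 0 → 0 < avg k h y := by
    intro k h hk hc hp y hy
    exact intervalIntegral.intervalIntegral_pos_of_pos_on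
      ((hc.comp (continuous_const.update k continuous_id)).intervalIntegrable _ _)
      (fun s _ => hp _ (by rw [Function.update_of_ne hk.symm, hy])) zero_lt_one
  exact key 1 _ (by decide) c2 (key 2 _ (by decide) c3 (key 3 _ (by decide) hg hpos)) x rfl

end Vale.Agent.P204
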