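import Mathlib

/-!
Linear algebra at a point: extending a two-form from a hyperplane to an invariant form.
-/

namespace Vale.Agent.P204

open Matrix

/-- The first coordinate covector. -/
def dt : Fin 4 → ℝ := fun m => if m = 0 then 1 else 0

/-- The covector `dt ∘ J`. -/
def theta (J : Matrix (Fin 4) (Fin 4) ℝ) : Fin 4 → ℝ := fun m => J 0 m

/-- A vector tangent to the hyperplane with `theta = 1`. -/
noncomputable def evec (J : Matrix (Fin 4) (Fin 4) ℝ) : Fin 4 → ℝ :=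
  fun m => if m = 0 then 0 else J 0 m / (J 0 1 ^ 2 + J 0 2 ^ 2 + J 0 3 ^ 2)

/-- The anti-invariant part. -/
noncomputable def antiPart (J G : Matrix (Fin 4) (Fin 4) ℝ) : Matrix (Fin 4) (Fin 4) ℝ :=
  (1 / 2 : ℝ) • (Jᵀ * G * J - G)

/-- The covector `b`. -/
noncomputable def bvec (J G : Matrix (Fin 4) (Fin 4) ℝ) : Fin 4 → ℝ := evec J ᵥ* antiPart J G

/-- An invariant form with the same restriction to the hyperplane as `G`, plus `K` times the
invariant form of the complementary plane. -/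
noncomputable def ext (J G : Matrix (Fin 4) (Fin 4) ℝ) (K : ℝ) : Matrix (Fin 4) (Fin 4) ℝ :=
  (1 / 2 : ℝ) • (Jᵀ * G * J + G) -
    (vecMulVec (theta J) (bvec J G) - vecMulVec (bvec J G) (theta J) -
      (vecMulVec dt (bvec J G ᵥ* J) - vecMulVec (bvec J G ᵥ* J) dt)) +
    K • (vecMulVec (theta J) dt - vecMulVec dt (theta J))

lemma dt_dot (v : Fin 4 → ℝ) : dt ⬝ᵥ v = v 0 := by simp [dt, dotProduct]

lemma theta_dot (J : Matrix (Fin 4) (Fin 4) ℝ) (v : Fin 4 → ℝ) : theta J ⬝ᵥ v = (J *ᵥ v) 0 := rfl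

variable {J : Matrix (Fin 4) (Fin 4) ℝ}

lemma dt_vecMul (J : Matrix (Fin 4) (Fin 4) ℝ) : dt ᵥ* J = theta J := by
  funext m; simp [vecMul, dotProduct, dt, theta]

lemma theta_vecMul (hJ : J * J = -1) : theta J ᵥ* J = -dt := by
  rw [← dt_vecMul, vecMul_vecMul, hJ, vecMul_neg, vecMul_one]

lemma vecMul_J_J (hJ : J * J = -1) (b : Fin 4 → ℝ) : (b ᵥ* J) ᵥ* J = -b := by
  rw [vecMul_vecMul, hJ, vecMul_neg, vecMul_one]

lemma den_pos (hJ : J * J = -1) : 0 < J 0 1 ^ 2 + J 0 2 ^ 2 + J 0 3 ^ 2 := by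
  by_contra h
  rw [not_lt] at h
  have h1 : J 0 1 = 0 := by nlinarith [sq_nonneg (J 0 1), sq_nonneg (J 0 2), sq_nonneg (J 0 3)]
  have h2 : J 0 2 = 0 := by nlinarith [sq_nonneg (J 0 1), sq_nonneg (J 0 2), sq_nonneg (J 0 3)]
  have h3 : J 0 3 = 0 := by nlinarith [sq_nonneg (J 0 1), sq_nonneg (J 0 2), sq_nonneg (J 0 3)]
  have := congrFun (congrFun hJ 0) 0
  simp [Matrix.mul_apply, Fin.sum_univ_four, h1, h2, h3] at this
  nlinarith [sq_nonneg (J 0 0)]

lemma evec_theta (hJ : J * J = -1) : theta J ⬝ᵥ evec J = 1 := by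
  have h := den_pos hJ
  simp only [dotProduct, theta, evec, Fin.sum_univ_four]
  simp
  field_simp

lemma pullback_vecMulVec (J : Matrix (Fin 4) (Fin 4) ℝ) (a b : Fin 4 → ℝ) :
    Jᵀ * vecMulVec a b * J = vecMulVec (a ᵥ* J) (b ᵥ* J) := by
  rw [mul_vecMulVec, vecMulVec_mul, mulVec_transpose]

lemma ext_invariant (hJ : J * J = -1) (G : Matrix (Fin 4) (Fin 4) ℝ) (K : ℝ) :
    Jᵀ * ext J G K * J = ext J G K := by
  have hJt : Jᵀ * Jᵀ = -1 := by rw [← transpose_mul, hJ, transpose_neg, transpose_one]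
  have e : Jᵀ * (Jᵀ * G * J) * J = G := by
    rw [← Matrix.mul_assoc, ← Matrix.mul_assoc, hJt, Matrix.mul_assoc, hJ]
    simp
  simp only [ext, Matrix.mul_add, Matrix.add_mul, Matrix.mul_sub, Matrix.sub_mul, Matrix.mul_smul,
    Matrix.smul_mul, pullback_vecMulVec, e, theta_vecMul hJ, dt_vecMul, vecMul_J_J hJ,
    vecMulVec_neg, neg_vecMulVec]
  module

lemma ext_antisymm {G : Matrix (Fin 4) (Fin 4) ℝ} (hG : Gᵀ = -G) (K : ℝ) :
    (ext J G K)ᵀ = -ext J G K := by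
  simp only [ext, transpose_add, transpose_sub, transpose_smul, transpose_mul,
    transpose_transpose, transpose_vecMulVec, hG, Matrix.neg_mul, Matrix.mul_neg,
    Matrix.mul_assoc]
  module

lemma antiPart_props (hJ : J * J = -1) {G : Matrix (Fin 4) (Fin 4) ℝ} (hG : Gᵀ = -G)
    (u v : Fin 4 → ℝ) :
    (J *ᵥ u) ⬝ᵥ (antiPart J G *ᵥ (J *ᵥ v)) = -(u ⬝ᵥ (antiPart J G *ᵥ v)) ∧
      v ⬝ᵥ (antiPart J G *ᵥ u) = -(u ⬝ᵥ (antiPart J G *ᵥ v)) := by
  have hJt : Jᵀ * Jᵀ = -1 := by rw [← transpose_mul, hJ, transpose_neg, transpose_one]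
  have e : Jᵀ * antiPart J G * J = -antiPart J G := by
    have e' : Jᵀ * (Jᵀ * G * J) * J = G := by
      rw [← Matrix.mul_assoc, ← Matrix.mul_assoc, hJt, Matrix.mul_assoc, hJ]
      simp
    simp only [antiPart, Matrix.mul_smul, Matrix.smul_mul, Matrix.mul_sub, Matrix.sub_mul, e']
    module
  have et : (antiPart J G)ᵀ = -antiPart J G := by
    simp only [antiPart, transpose_smul, transpose_sub, transpose_mul, transpose_transpose, hG,
      Matrix.neg_mul, Matrix.mul_neg, Matrix.mul_assoc]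
    module
  constructor
  · rw [dotProduct_mulVec, ← vecMul_transpose, vecMul_vecMul, dotProduct_mulVec, vecMul_vecMul, e,
      ← dotProduct_mulVec, neg_mulVec, dotProduct_neg]
  · rw [dotProduct_mulVec, ← mulVec_transpose, et, dotProduct_comm, neg_mulVec, dotProduct_neg]

/-- The anti-invariant part vanishes on the complex line in the hyperplane. -/
lemma antiPart_line (hJ : J * J = -1) {G : Matrix (Fin 4) (Fin 4) ℝ} (hG : Gᵀ = -G)
    {u v : Fin 4 → ℝ} (hu0 : u 0 = 0) (hu1 : theta J ⬝ᵥ u = 0) (hv0 : v 0 = 0)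
    (hv1 : theta J ⬝ᵥ v = 0) : u ⬝ᵥ (antiPart J G *ᵥ v) = 0 := by
  by_cases hune : u = 0
  · simp [hune]
  have hJJ : ∀ w, J *ᵥ (J *ᵥ w) = -w := fun w => by
    rw [mulVec_mulVec, hJ, neg_mulVec, one_mulVec]
  let L : (Fin 4 → ℝ) →ₗ[ℝ] ℝ × ℝ :=
    { toFun := fun w => (w 0, theta J ⬝ᵥ w)
      map_add' := fun a b => by simp [dotProduct_add]
      map_smul' := fun a b => by simp [dotProduct_smul] }
  have hsurj : Function.Surjective L := by
    intro p
    refine ⟨p.2 • evec J + p.1 • (J *ᵥ evec J), ?_⟩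
    have h1 : evec J 0 = 0 := by simp [evec]
    have h2 : (J *ᵥ evec J) 0 = 1 := by rw [← theta_dot]; exact evec_theta hJ
    have h3 : theta J ⬝ᵥ (J *ᵥ evec J) = 0 := by
      rw [theta_dot, hJJ, Pi.neg_apply, h1, neg_zero]
    simp [L, dotProduct_add, dotProduct_smul, h1, h2, h3, evec_theta hJ]
  have hker : Module.finrank ℝ (LinearMap.ker L) = 2 := by
    have := LinearMap.finrank_range_add_finrank_ker L
    rw [LinearMap.range_eq_top.2 hsurj, finrank_top] at this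
    simp at this
    omega
  have hJu : J *ᵥ u ∈ LinearMap.ker L := by
    simp only [LinearMap.mem_ker, L, LinearMap.coe_mk, AddHom.coe_mk, Prod.mk_eq_zero]
    exact ⟨hu1, by rw [theta_dot, hJJ, Pi.neg_apply, hu0, neg_zero]⟩
  have hu : u ∈ LinearMap.ker L := by simp [L, hu0, hu1]
  have hv : v ∈ LinearMap.ker L := by simp [L, hv0, hv1]
  have hind : LinearIndependent ℝ ![(⟨u, hu⟩ : LinearMap.ker L), ⟨J *ᵥ u, hJu⟩] := by
    rw [LinearIndependent.pair_iff]
    intro s t hst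
    have h := congrArg Subtype.val hst
    simp only [Submodule.coe_add, Submodule.coe_smul, ZeroMemClass.coe_zero] at h
    have h' := congrArg (fun w => J *ᵥ w) h
    simp only [mulVec_add, mulVec_smul, hJJ, mulVec_zero] at h'
    have h2 : (s * s + t * t) • u = 0 := by
      have e : (s * s + t * t) • u = s • (s • u + t • (J *ᵥ u)) - t • (s • (J *ᵥ u) + t • -u) := by
        module
      rw [e, h, h']; simp
    rcases smul_eq_zero.1 h2 with h3 | h3
    · constructor <;> nlinarith [mul_self_nonneg s, mul_self_nonneg t]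
    · exact absurd h3 hune
  have htop := hind.span_eq_top_of_card_eq_finrank (by rw [hker]; simp)
  have hmem : (⟨v, hv⟩ : LinearMap.ker L) ∈ Submodule.span ℝ (Set.range ![(⟨u, hu⟩ : LinearMap.ker L), ⟨J *ᵥ u, hJu⟩]) := by
    rw [htop]; trivial
  obtain ⟨c, hc⟩ := (Submodule.mem_span_range_iff_exists_fun ℝ).1 hmem
  have hveq : v = c 0 • u + c 1 • (J *ᵥ u) := by
    have := congrArg Subtype.val hc
    simpa [Fin.sum_univ_two] using this.symm
  obtain ⟨-, p2⟩ := antiPart_props hJ hG u u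
  have z1 : u ⬝ᵥ (antiPart J G *ᵥ u) = 0 := by linarith
  obtain ⟨q1, -⟩ := antiPart_props hJ hG u (J *ᵥ u)
  obtain ⟨-, q2⟩ := antiPart_props hJ hG u (J *ᵥ u)
  rw [hJJ, mulVec_neg, dotProduct_neg] at q1
  have z2 : u ⬝ᵥ (antiPart J G *ᵥ (J *ᵥ u)) = 0 := by linarith
  rw [hveq, mulVec_add, mulVec_smul, mulVec_smul, dotProduct_add, dotProduct_smul,
    dotProduct_smul, z1, z2]
  simp

/-- On the hyperplane the extension restricts to `G`. -/
lemma ext_restrict (hJ : J * J = -1) {G : Matrix (Fin 4) (Fin 4) ℝ} (hG : Gᵀ = -G) (K : ℝ)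
    {u v : Fin 4 → ℝ} (hu : u 0 = 0) (hv : v 0 = 0) :
    u ⬝ᵥ (ext J G K *ᵥ v) = u ⬝ᵥ (G *ᵥ v) := by
  have h1 : evec J 0 = 0 := by simp [evec]
  set a := theta J ⬝ᵥ u with ha
  set b := theta J ⬝ᵥ v with hb
  have hline := antiPart_line hJ hG (u := u - a • evec J) (v := v - b • evec J)
    (by simp [hu, h1]) (by rw [dotProduct_sub, dotProduct_smul, evec_theta hJ]; simp [ha])
    (by simp [hv, h1]) (by rw [dotProduct_sub, dotProduct_smul, evec_theta hJ]; simp [hb])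
  obtain ⟨-, zz⟩ := antiPart_props hJ hG (evec J) (evec J)
  obtain ⟨-, ze⟩ := antiPart_props hJ hG u (evec J)
  have eb : ∀ w, bvec J G ⬝ᵥ w = evec J ⬝ᵥ (antiPart J G *ᵥ w) := fun w =>
    (dotProduct_mulVec _ _ _).symm
  simp only [mulVec_sub, mulVec_smul, dotProduct_sub, sub_dotProduct, smul_dotProduct,
    dotProduct_smul, smul_eq_mul] at hline
  have hanti : u ⬝ᵥ (antiPart J G *ᵥ v) =
      (1 / 2) * (u ⬝ᵥ ((Jᵀ * G * J) *ᵥ v) - u ⬝ᵥ (G *ᵥ v)) := by
    simp [antiPart, smul_mulVec, sub_mulVec, dotProduct_smul, dotProduct_sub]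
  have he : u ⬝ᵥ (ext J G K *ᵥ v) = (1 / 2) * (u ⬝ᵥ ((Jᵀ * G * J) *ᵥ v) + u ⬝ᵥ (G *ᵥ v)) -
      (a * (bvec J G ⬝ᵥ v) - (bvec J G ⬝ᵥ u) * b) := by
    simp only [ext, add_mulVec, sub_mulVec, smul_mulVec, vecMulVec_mulVec, dotProduct_add,
      dotProduct_sub, dotProduct_smul, dt_dot, hv, dotProduct_comm u dt, hu,
      dotProduct_comm u (theta J), dotProduct_comm u (bvec J G), ← ha, ← hb]
    simp [ha, hb]
  rw [he, eb, eb]
  have zz0 : evec J ⬝ᵥ (antiPart J G *ᵥ evec J) = 0 := by linarith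
  rw [zz0] at hline
  rw [ze] at *
  linarith

/-- The value on `(v, J v)`. -/
lemma ext_value (hJ : J * J = -1) (G : Matrix (Fin 4) (Fin 4) ℝ) (K : ℝ) (v : Fin 4 → ℝ) :
    v ⬝ᵥ (ext J G K *ᵥ (J *ᵥ v)) =
      v ⬝ᵥ (ext J G 0 *ᵥ (J *ᵥ v)) + K * (v 0 ^ 2 + (theta J ⬝ᵥ v) ^ 2) := by
  have e : ext J G K = ext J G 0 + K • (vecMulVec (theta J) dt - vecMulVec dt (theta J)) := by
    simp [ext]
  have h2 : theta J ⬝ᵥ (J *ᵥ v) = -v 0 := by
    rw [theta_dot, mulVec_mulVec, hJ, neg_mulVec, one_mulVec, Pi.neg_apply]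
  rw [e, add_mulVec, dotProduct_add, smul_mulVec, sub_mulVec, dotProduct_smul, dotProduct_sub,
    vecMulVec_mulVec, vecMulVec_mulVec, dt_dot, h2, ← theta_dot]
  simp [dotProduct_comm v (theta J), dotProduct_comm v dt, dt_dot]
  left; ring

end Vale.Agent.P204
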