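import Mathlib
import Vale.Agent.P204.Average
import Vale.Agent.P204.Pointwise

/-!
A tamed almost complex structure on the four-torus depending on one coordinate only is compatible
with a symplectic form.
-/

namespace Vale.Agent.P204

open Matrix Set
open scoped ContDiff

variable {J w : (Fin 4 → ℝ) → Matrix (Fin 4) (Fin 4) ℝ}

lemma avg3_time_only (g : (Fin 4 → ℝ) → ℝ) {x y : Fin 4 → ℝ} (h : x 0 = y 0) :
    avg3 g x = avg3 g y := by
  simp only [avg3, avg]
  congr! 7 with a b c
  funext m
  fin_cases m <;> simp [Function.update, h]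

/-- The constant spatial form. -/
noncomputable def periods (w : (Fin 4 → ℝ) → Matrix (Fin 4) (Fin 4) ℝ) : Matrix (Fin 4) (Fin 4) ℝ :=
  Matrix.of fun i j => if i = 0 ∨ j = 0 then 0 else avg3 (fun y => w y i j) 0

lemma periods_antisymm (hw : IsClosedTwoForm w) : (periods w)ᵀ = -periods w := by
  ext i j
  simp only [periods, transpose_apply, Matrix.neg_apply, of_apply]
  by_cases h : i = 0 ∨ j = 0
  · rw [if_pos h, if_pos h.symm, neg_zero]
  · rw [if_neg h, if_neg fun h' => h h'.symm]
    have e : (fun y => w y j i) = fun y => (-1) * w y i j := by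
      funext y
      have := congrFun (congrFun (hw.2.2.1 y) i) j
      simp only [transpose_apply, Matrix.neg_apply] at this
      linarith
    rw [e, avg3_const_mul]; ring

lemma periods_pos (hw : IsClosedTwoForm w) (hJ : IsAlmostComplex J)
    (hinv : ∀ x y : Fin 4 → ℝ, x 0 = y 0 → J x = J y) (ht : Tames w J) (x v : Fin 4 → ℝ)
    (hv : v ≠ 0) (h0 : v 0 = 0) (h1 : theta (J x) ⬝ᵥ v = 0) :
    0 < v ⬝ᵥ (periods w *ᵥ (J x *ᵥ v)) := by
  set q := J x *ᵥ v with hq
  have hq0 : q 0 = 0 := by rw [hq, ← theta_dot]; exact h1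
  have hc : ∀ i j, Continuous fun y => w y i j := fun i j => (hw.1 i j).continuous
  have hval : ∀ i j, v i * q j * periods w i j = v i * q j * avg3 (fun y => w y i j) x := by
    intro i j
    by_cases h : i = 0 ∨ j = 0
    · rcases h with rfl | rfl
      · simp [h0]
      · simp [hq0]
    · push Not at h
      congr 1
      simp only [periods, of_apply, if_neg (not_or.2 h)]
      have e := period_constant hw h.1 h.2 x (x 0)
      rw [Function.update_eq_self] at e
      rw [e]
      exact (avg3_time_only _ (by simp)).symm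
  have e : v ⬝ᵥ (periods w *ᵥ q) = avg3 (fun y => ∑ i, ∑ j, v i * q j * w y i j) x := by
    rw [avg3_sum _ fun i => continuous_finsetSum _ fun j _ => (hc i j).const_mul _]
    simp only [dotProduct, mulVec, Finset.mul_sum]
    refine Finset.sum_congr rfl fun i _ => ?_
    rw [avg3_sum _ fun j => (hc i j).const_mul _]
    refine Finset.sum_congr rfl fun j _ => ?_
    rw [avg3_const_mul, ← hval]; ring
  rw [e]
  refine avg3_pos (continuous_finsetSum _ fun i _ => continuous_finsetSum _ fun j _ =>
    (hc i j).const_mul _) fun y hy => ?_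
  have := ht y v hv
  rw [hinv y x hy] at this
  simp only [dotProduct, mulVec, Finset.mul_sum] at this
  refine lt_of_lt_of_eq this (Finset.sum_congr rfl fun i _ => Finset.sum_congr rfl fun j _ => ?_)
  simp only [hq, mulVec, dotProduct, Finset.sum_mul, Finset.mul_sum]
  exact Finset.sum_congr rfl fun k _ => by ring

lemma pd_time_only {g : (Fin 4 → ℝ) → ℝ} (hg : ContDiff ℝ ∞ g)
    (h : ∀ x y : Fin 4 → ℝ, x 0 = y 0 → g x = g y) {k : Fin 4} (hk : k ≠ 0) (x : Fin 4 → ℝ) :
    pd k g x = 0 := by
  have h1 := (hasPD_of_contDiff hg k).2.2 x (x k)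
  rw [Function.update_eq_self] at h1
  refine h1.unique ?_
  have : (fun r => g (Function.update x k r)) = fun _ => g x :=
    funext fun r => h _ _ (Function.update_of_ne hk.symm _ _)
  rw [this]; exact hasDerivAt_const _ _

/-- A form with spatial part constant and depending on the first coordinate only is closed. -/
lemma closed_of_time_only {F : (Fin 4 → ℝ) → Matrix (Fin 4) (Fin 4) ℝ}
    (hs : ∀ i j, ContDiff ℝ ∞ fun x => F x i j) (ha : ∀ x, (F x)ᵀ = -F x)
    (ht : ∀ x y : Fin 4 → ℝ, x 0 = y 0 → F x = F y) (hc : ∀ i j, i ≠ 0 → j ≠ 0 →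
      ∀ x y, F x i j = F y i j) (i j k : Fin 4) (x : Fin 4 → ℝ) :
    pd i (fun y => F y j k) x + pd j (fun y => F y k i) x + pd k (fun y => F y i j) x = 0 := by
  have z : ∀ a b c, a ≠ 0 → pd a (fun y => F y b c) x = 0 := fun a b c h =>
    pd_time_only (hs b c) (fun p q hpq => by rw [ht p q hpq]) h x
  have zc : ∀ a b c, b ≠ 0 → c ≠ 0 → pd a (fun y => F y b c) x = 0 := fun a b c hb hc' => by
    rw [pd, show (fun y => F y b c) = fun _ => F x b c from funext fun y => hc b c hb hc' y x]
    simp
  have sw : ∀ a b c, pd a (fun y => F y b c) x = -pd a (fun y => F y c b) x := fun a b c => by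
    have e : (fun y => F y b c) = fun y => -F y c b := funext fun y => by
      have := congrFun (congrFun (ha y) c) b
      simpa using this
    rw [e, pd, fderiv_fun_neg]; rfl
  by_cases hi : i = 0 <;> by_cases hj : j = 0 <;> by_cases hk : k = 0 <;>
    simp only [hi, hj, hk, ne_eq, not_false_eq_true, not_true_eq_false, z, zc, add_zero, zero_add]
  all_goals first
    | linarith [sw 0 0 0]
    | linarith [sw 0 0 i, sw 0 i 0]
    | linarith [sw 0 0 j, sw 0 j 0]
    | linarith [sw 0 0 k, sw 0 k 0]

/-- **Tamed implies compatible** for structures invariant under a three-torus. -/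
theorem tamed_compatible (hJ : IsAlmostComplex J)
    (hinv : ∀ x y : Fin 4 → ℝ, x 0 = y 0 → J x = J y) (hw : IsClosedTwoForm w) (ht : Tames w J) :
    ∃ w', IsClosedTwoForm w' ∧ IsCompatible w' J := by
  set G := periods w with hG
  have hGa := periods_antisymm hw
  set pt : ℝ → (Fin 4 → ℝ) := fun t => Function.update 0 0 t with hpt
  have hptc : Continuous pt := continuous_const.update 0 continuous_id
  have hJc : ∀ i j, Continuous fun t => J (pt t) i j := fun i j =>
    (hJ.1 i j).continuous.comp hptc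
  have hbc : ∀ (K : ℝ) i j, ContDiff ℝ ∞ fun x => ext (J x) G K i j := by
    intro K
    have hden : ContDiff ℝ ∞ fun x => J x 0 1 ^ 2 + J x 0 2 ^ 2 + J x 0 3 ^ 2 :=
      (((hJ.1 0 1).pow 2).add ((hJ.1 0 2).pow 2)).add ((hJ.1 0 3).pow 2)
    have he : ∀ m, ContDiff ℝ ∞ fun x => evec (J x) m := by
      intro m
      by_cases hm : m = 0
      · simp [evec, hm, contDiff_const]
      · simp only [evec, hm, if_false]
        exact (hJ.1 0 m).div hden fun x => (den_pos (hJ.2.2 x)).ne'
    have hanti : ∀ a b, ContDiff ℝ ∞ fun x => antiPart (J x) G a b := by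
      intro a b
      simp only [antiPart, Matrix.smul_apply, Matrix.sub_apply, Matrix.mul_apply, transpose_apply,
        smul_eq_mul, Finset.sum_mul]
      exact contDiff_const.mul ((ContDiff.sum fun p _ => ContDiff.sum fun q _ =>
        ((hJ.1 q a).mul contDiff_const).mul (hJ.1 p b)).sub contDiff_const)
    have hb : ∀ m, ContDiff ℝ ∞ fun x => bvec (J x) G m := by
      intro m
      simp only [bvec, vecMul, dotProduct]
      exact ContDiff.sum fun l _ => (he l).mul (hanti l m)
    have hbj : ∀ m, ContDiff ℝ ∞ fun x => (bvec (J x) G ᵥ* J x) m := by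
      intro m
      simp only [vecMul, dotProduct]
      exact ContDiff.sum fun l _ => (hb l).mul (hJ.1 l m)
    intro i j
    simp only [ext, Matrix.smul_apply, Matrix.sub_apply, Matrix.add_apply, vecMulVec_apply,
      Matrix.mul_apply, transpose_apply, smul_eq_mul, Finset.sum_mul, theta]
    exact ((contDiff_const.mul ((ContDiff.sum fun p _ => ContDiff.sum fun q _ =>
        ((hJ.1 q i).mul contDiff_const).mul (hJ.1 p j)).add contDiff_const)).sub
      ((((hJ.1 0 i).mul (hb j)).sub ((hb i).mul (hJ.1 0 j))).sub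
        ((contDiff_const.mul (hbj j)).sub ((hbj i).mul contDiff_const)))).add
      (contDiff_const.mul (((hJ.1 0 i).mul contDiff_const).sub (contDiff_const.mul (hJ.1 0 j))))
  set Q : ℝ × (Fin 4 → ℝ) → ℝ := fun p => p.2 ⬝ᵥ (ext (J (pt p.1)) G 0 *ᵥ (J (pt p.1) *ᵥ p.2))
    with hQ
  set L : ℝ × (Fin 4 → ℝ) → ℝ := fun p => p.2 0 ^ 2 + (theta (J (pt p.1)) ⬝ᵥ p.2) ^ 2 with hL
  have hE : ∀ i j, Continuous fun p : ℝ × (Fin 4 → ℝ) => ext (J (pt p.1)) G 0 i j := fun i j =>
    ((hbc 0 i j).continuous.comp hptc).comp continuous_fst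
  have hJp : ∀ i j, Continuous fun p : ℝ × (Fin 4 → ℝ) => J (pt p.1) i j := fun i j =>
    (hJc i j).comp continuous_fst
  have hv : ∀ i, Continuous fun p : ℝ × (Fin 4 → ℝ) => p.2 i := fun i =>
    (continuous_apply i).comp continuous_snd
  have hQc : Continuous Q := by
    simp only [hQ, dotProduct, mulVec]
    exact continuous_finsetSum _ fun i _ => (hv i).mul (continuous_finsetSum _ fun j _ =>
      (hE i j).mul (continuous_finsetSum _ fun k _ => (hJp j k).mul (hv k)))
  have hLc : Continuous L := by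
    simp only [hL, dotProduct, theta]
    exact ((hv 0).pow 2).add ((continuous_finsetSum _ fun k _ => (hJp 0 k).mul (hv k)).pow 2)
  set S := Icc (0 : ℝ) 1 ×ˢ Metric.sphere (0 : Fin 4 → ℝ) 1 with hS
  have hSc : IsCompact S := isCompact_Icc.prod (isCompact_sphere 0 1)
  have hkerpos : ∀ p ∈ S, L p = 0 → 0 < Q p := by
    rintro ⟨t, v⟩ hp hl
    simp only [hL] at hl
    have h0 : v 0 = 0 := by nlinarith [sq_nonneg (theta (J (pt t)) ⬝ᵥ v), sq_nonneg (v 0)]
    have h1 : theta (J (pt t)) ⬝ᵥ v = 0 := by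
      nlinarith [sq_nonneg (theta (J (pt t)) ⬝ᵥ v), sq_nonneg (v 0)]
    have hvne : v ≠ 0 := by
      intro hv0; have := hp.2; simp [hv0] at this
    simp only [hQ]
    rw [ext_restrict (hJ.2.2 _) hGa 0 h0 (by rw [← theta_dot]; exact h1)]
    exact periods_pos hw hJ hinv ht _ v hvne h0 h1
  obtain ⟨K, hK0, hK⟩ : ∃ K : ℝ, 0 ≤ K ∧ ∀ p ∈ S, 0 < Q p + K * L p := by
    have hLnn : ∀ p, 0 ≤ L p := fun p => by simp only [hL]; positivity
    have hBc : IsCompact (S ∩ {p | Q p ≤ 0}) := hSc.inter_right (isClosed_le hQc continuous_const)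
    rcases (S ∩ {p | Q p ≤ 0}).eq_empty_or_nonempty with he | hne
    · refine ⟨0, le_rfl, fun p hp => ?_⟩
      by_contra h
      simp only [zero_mul, add_zero, not_lt] at h
      exact Set.eq_empty_iff_forall_notMem.1 he p ⟨hp, h⟩
    · obtain ⟨p0, hp0, hmin⟩ := hBc.exists_isMinOn hne hLc.continuousOn
      obtain ⟨p1, hp1, hmax⟩ := hBc.exists_isMinOn hne hQc.continuousOn
      rw [isMinOn_iff] at hmin hmax
      have hm : 0 < L p0 := lt_of_le_of_ne (hLnn _) fun e =>
        absurd hp0.2 (not_le.2 (hkerpos p0 hp0.1 e.symm))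
      have hM : 0 ≤ -Q p1 := by linarith [hp1.2.out]
      refine ⟨(-Q p1 + 1) / L p0, by positivity, fun p hp => ?_⟩
      by_cases h : Q p ≤ 0
      · have h1 : (-Q p1 + 1) / L p0 * L p0 ≤ (-Q p1 + 1) / L p0 * L p :=
          mul_le_mul_of_nonneg_left (hmin p ⟨hp, h⟩) (by positivity)
        rw [div_mul_cancel₀ _ hm.ne'] at h1
        linarith [hmax p ⟨hp, h⟩]
      · have : 0 ≤ (-Q p1 + 1) / L p0 * L p := mul_nonneg (by positivity) (hLnn p)
        linarith
  have htime : ∀ x y : Fin 4 → ℝ, x 0 = y 0 → ext (J x) G K = ext (J y) G K := fun x y h => by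
    rw [hinv x y h]
  refine ⟨fun x => ext (J x) G K, ⟨fun i j => hbc K i j, fun x i => ?_, fun x => ext_antisymm hGa K,
    closed_of_time_only (fun i j => hbc K i j) (fun x => ext_antisymm hGa K) htime ?_⟩, ?_, ?_⟩
  · simp only [hJ.2.1 x i]
  · intro i j hi hj x y
    have e : ∀ z, ext (J z) G K i j = G i j := fun z => by
      have := ext_restrict (hJ.2.2 z) hGa K (u := Pi.single i 1) (v := Pi.single j 1)
        (by simp [Ne.symm hi]) (by simp [Ne.symm hj])
      simpa using this
    rw [e, e]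
  · intro x v hv0
    set t := Int.fract (x 0) with ht'
    have hx : J x = J (pt t) := by
      have hper : Function.Periodic (fun s => J (pt s)) 1 := fun s => by
        have := hJ.2.1 (pt s) 0
        simpa [hpt] using this
      have h := hper.sub_int_mul_eq (x := x 0) ⌊x 0⌋
      rw [mul_one, Int.self_sub_floor] at h
      exact (hinv x (pt (x 0)) (by simp [hpt])).trans h.symm
    have hn : 0 < ‖v‖ := norm_pos_iff.2 hv0
    have hp : (t, ‖v‖⁻¹ • v) ∈ S := ⟨⟨Int.fract_nonneg _, (Int.fract_lt_one _).le⟩, by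
      simp [norm_smul, hn.ne']⟩
    have h := hK _ hp
    simp only [hQ, hL, mulVec_smul, dotProduct_smul, smul_dotProduct, Pi.smul_apply, smul_eq_mul]
      at h
    simp only
    rw [hx, ext_value (hJ.2.2 _)]
    by_contra hle
    rw [not_lt] at hle
    nlinarith [mul_nonpos_of_nonneg_of_nonpos (sq_nonneg ‖v‖⁻¹) hle]
  · intro x u v
    simp only
    rw [dotProduct_mulVec, ← vecMul_transpose, vecMul_vecMul, dotProduct_mulVec, vecMul_vecMul,
      ext_invariant (hJ.2.2 x), ← dotProduct_mulVec]

end Vale.Agent.P204
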